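import Mathlib
import Crest.Agent.Lib.ODEFlow
import Crest.Agent.X212.Dfl49.Sur
import Crest.Agent.X212.Met55.Fr
import Crest.Agent.X212.Wz78.Par

-- ▼ part X212/Rdc90/Pd
section

/-!
# Row 212, RDEC (helper90), file 1: partial derivatives in coordinates, linear ODEs with parameters
-/

set_option autoImplicit false
set_option linter.unusedSectionVars false
set_option linter.unusedVariables false
noncomputable section
open Set Function Filter Topology
open scoped ContDiff

namespace Crest.Agent.X212.Rdc90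

section Ode
open Crest.Agent.Lib.ODEFlow
variable {P V : Type} [NormedAddCommGroup P] [NormedSpace ℝ P]
  [NormedAddCommGroup V] [NormedSpace ℝ V] [CompleteSpace V]

/-- `(p, l) ↦ (t ↦ ((p, t l), l))` -/
def lineL (P : Type) [NormedAddCommGroup P] [NormedSpace ℝ P] :
    (P × ℝ) →L[ℝ] C(I, (P × ℝ) × ℝ) :=
  LinearMap.mkContinuous
    { toFun := fun y => ⟨fun t => ((y.1, (t : ℝ) * y.2), y.2), by fun_prop⟩
      map_add' := by intro y z; ext t <;> simp [mul_add]
      map_smul' := by intro c y; ext t <;> simp [mul_left_comm] } 1 (by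
    intro y
    rw [ContinuousMap.norm_le _ (by positivity)]
    intro t
    have h1 : ‖y.1‖ ≤ ‖y‖ := norm_fst_le y
    have h2 : ‖y.2‖ ≤ ‖y‖ := norm_snd_le y
    have h3 : ‖(t : ℝ) * y.2‖ ≤ ‖y‖ := by
      rw [norm_mul, Real.norm_of_nonneg t.2.1]
      exact (mul_le_of_le_one_left (norm_nonneg _) t.2.2).trans h2
    show ‖((y.1, (t : ℝ) * y.2), y.2)‖ ≤ 1 * ‖y‖
    rw [one_mul]
    exact norm_prod_le_iff.2 ⟨norm_prod_le_iff.2 ⟨h1, h3⟩, h2⟩)

/-- smooth solutions of a linear ODE with parameters -/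
theorem exists_ode (B : P × ℝ → V →L[ℝ] V) (hB : ContDiff ℝ ∞ B) (v0 : V) :
    ∃ w : P × ℝ → V, ContDiff ℝ ∞ w ∧ (∀ p, w (p, 0) = v0) ∧
      ∀ p s, HasDerivAt (fun r => w (p, r)) (B (p, s) (w (p, s))) s := by
  set g : (P × ℝ) × ℝ → V →L[ℝ] V := fun q => q.2 • B q.1 with hg
  have hgU : ContDiffOn ℝ ∞ g univ :=
    (contDiff_snd.smul (hB.comp contDiff_fst)).contDiffOn
  have hray : ∀ y, lineL P y ∈ mapsIn I (univ : Set ((P × ℝ) × ℝ)) := fun y t => mem_univ _
  set op : P × ℝ → C(I, V) →L[ℝ] C(I, V) := fun y =>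
    ContinuousLinearMap.id ℝ C(I, V) - vol ∘L applyB (nem g (lineL P y)) with hop
  have hinv : ∀ y, (op y).IsInvertible := fun y =>
    isInvertible_id_sub_vol_comp _ (norm_nonneg (nem g (lineL P y))) fun h t => by
      rw [applyB_apply]
      exact ((nem g (lineL P y)) t).le_of_opNorm_le ((nem g (lineL P y)).norm_coe_le_norm t) _
  have hops : ContDiff ℝ ∞ op := by
    have h1 : ContDiff ℝ ∞ (fun y => nem g (lineL P y)) := by
      rw [← contDiffOn_univ]
      exact (contDiffOn_nem (n := ⊤) isOpen_univ hgU).comp (lineL P).contDiff.contDiffOn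
        fun y _ => hray y
    have h3 : ContDiff ℝ ∞ (fun A : C(I, V →L[ℝ] V) => (applyB A : C(I, V) →L[ℝ] C(I, V))) := by
      fun_prop
    exact contDiff_const.sub (contDiff_const.clm_comp (h3.comp h1))
  set W : P × ℝ → C(I, V) := fun y => (op y).inverse (ContinuousMap.const I v0) with hW
  have hWs : ContDiff ℝ ∞ W := by
    have h1 : ContDiff ℝ ∞ (fun y => (op y).inverse) := contDiff_iff_contDiffAt.2 fun y =>
      (hinv y).contDiffAt_map_inverse.comp y hops.contDiffAt
    exact h1.clm_apply contDiff_const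
  have hWeq : ∀ y, op y (W y) = ContinuousMap.const I v0 := fun y =>
    (hinv y).self_apply_inverse _
  have hopap : ∀ y, ∀ (h : C(I, V)) (t : I), op y h t =
      h t - ∫ s in (0 : ℝ)..t, y.2 • B (y.1, (pr s : ℝ) * y.2) (h (pr s)) := by
    intro y h t
    have : ∀ s : I, applyB (nem g (lineL P y)) h s = y.2 • B (y.1, (s : ℝ) * y.2) (h s) :=
      fun s => by rw [applyB_apply, nem_apply hgU.continuousOn (hray y)]; rfl
    simp only [hop, sub_apply, ContinuousLinearMap.id_apply, ContinuousLinearMap.comp_apply,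
      ContinuousMap.sub_apply, vol_apply, this]
  have hint : ∀ y, ∀ t : I,
      W y t = v0 + ∫ s in (0 : ℝ)..t, y.2 • B (y.1, (pr s : ℝ) * y.2) (W y (pr s)) := by
    intro y t
    have := hopap y (W y) t
    rw [hWeq] at this
    simp only [ContinuousMap.const_apply] at this
    rw [this]; abel
  have hscale : ∀ p l, ∀ θ ∈ Icc (0 : ℝ) 1, W (p, θ * l) = scale θ (W (p, l)) := by
    intro p l θ hθ
    have h1 : op (p, θ * l) (scale θ (W (p, l))) = ContinuousMap.const I v0 := by
      ext t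
      rw [hopap, scale_apply, hint, pr_of_mem (mul_mem_I hθ t.2), ContinuousMap.const_apply]
      have h2 := intervalIntegral.smul_integral_comp_mul_left (a := 0) (b := (t : ℝ))
        (fun s : ℝ => l • B (p, (pr s : ℝ) * l) (W (p, l) (pr s))) θ
      rw [mul_zero] at h2
      simp only at h2 ⊢
      rw [← h2, ← intervalIntegral.integral_smul]
      have h3 : ∫ s in (0 : ℝ)..t, θ • l • B (p, (pr (θ * s) : ℝ) * l) (W (p, l) (pr (θ * s))) =
          ∫ s in (0 : ℝ)..t, (θ * l) • B (p, (pr s : ℝ) * (θ * l))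
            (scale θ (W (p, l)) (pr s)) := by
        refine intervalIntegral.integral_congr fun s hs => ?_
        rw [uIcc_of_le t.2.1] at hs
        have hs' : s ∈ Icc (0 : ℝ) 1 := ⟨hs.1, hs.2.trans t.2.2⟩
        simp only [scale_apply, pr_of_mem hs', pr_of_mem (mul_mem_I hθ hs'), smul_smul,
          mul_assoc, mul_left_comm s θ]
      rw [h3]; abel
    have := (hinv (p, θ * l)).inverse_apply_self (scale θ (W (p, l)))
    rw [h1] at this
    exact this
  set w : P × ℝ → V := fun y => W y ⟨1, zero_le_one, le_rfl⟩ with hw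
  have hws : ContDiff ℝ ∞ w := by
    have : ContDiff ℝ ∞ (fun f : C(I, V) =>
        (ContinuousMap.evalCLM ℝ (⟨1, zero_le_one, le_rfl⟩ : I) : C(I, V) →L[ℝ] V) f) := by
      fun_prop
    exact this.comp hWs
  have hwr : ∀ p l, w (p, l) = v0 + ∫ r in (0 : ℝ)..l, B (p, r) (w (p, r)) := by
    intro p l
    have e : ∀ θ ∈ Icc (0 : ℝ) 1, W (p, l) (pr θ) = w (p, θ * l) := fun θ hθ => by
      show _ = W (p, θ * l) ⟨1, zero_le_one, le_rfl⟩
      rw [hscale p l θ hθ, scale_apply, mul_one]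
    have h2 := intervalIntegral.smul_integral_comp_mul_right (a := 0) (b := (1 : ℝ))
      (fun r : ℝ => B (p, r) (w (p, r))) l
    rw [zero_mul, one_mul] at h2
    rw [← h2, ← intervalIntegral.integral_smul]
    show W (p, l) ⟨1, zero_le_one, le_rfl⟩ = _
    rw [hint]
    congr 1
    refine intervalIntegral.integral_congr fun s hs => ?_
    rw [uIcc_of_le zero_le_one] at hs
    simp only [pr_of_mem hs, e s hs]
  refine ⟨w, hws, fun p => by simpa using hwr p 0, fun p s => ?_⟩
  have hc : Continuous fun r : ℝ => B (p, r) (w (p, r)) :=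
    (hB.continuous.comp (by fun_prop)).clm_apply (hws.continuous.comp (by fun_prop))
  have h1 := (intervalIntegral.integral_hasDerivAt_right (hc.intervalIntegrable 0 s)
    (hc.stronglyMeasurableAtFilter _ _) hc.continuousAt).const_add v0
  exact h1.congr_of_eventuallyEq (Eventually.of_forall fun r => hwr p r)

omit [CompleteSpace V] in
/-- uniqueness for a linear ODE on the line -/
theorem ode_unique {B : ℝ → V →L[ℝ] V} (hB : Continuous B) {f g : ℝ → V}
    (hf : ∀ s, HasDerivAt f (B s (f s)) s) (hg : ∀ s, HasDerivAt g (B s (g s)) s)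
    {a : ℝ} (h0 : f a = g a) (s : ℝ) : f s = g s := by
  set R := |s - a| + 1 with hR
  have hRs : |s - a| < R := by linarith
  have hR0 : 0 < R := by positivity
  obtain ⟨K, hK⟩ := (isCompact_Icc (a := a - R) (b := a + R)).exists_bound_of_continuousOn
    hB.continuousOn
  have hK0 : 0 ≤ K := (norm_nonneg _).trans (hK a ⟨by linarith, by linarith⟩)
  have := ODE_solution_unique_of_mem_Ioo (v := fun t y => B t y) (s := fun _ => univ)
    (K := ⟨K, hK0⟩) (f := f) (g := g) (a := a - R) (b := a + R) (t₀ := a)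
    (fun t ht => ((B t).lipschitz.weaken (by
      have := hK t (Ioo_subset_Icc_self ht); exact_mod_cast this)).lipschitzOnWith)
    ⟨by linarith, by linarith⟩ (fun t _ => ⟨hf t, mem_univ _⟩) (fun t _ => ⟨hg t, mem_univ _⟩) h0
  have h := abs_lt.1 hRs
  exact this ⟨by linarith [h.1], by linarith [h.2]⟩

end Ode

variable {ι : Type} [Fintype ι] [DecidableEq ι] {V W : Type} [NormedAddCommGroup V]
  [NormedSpace ℝ V] [NormedAddCommGroup W] [NormedSpace ℝ W]
  {A : Type} [NormedRing A] [NormedAlgebra ℝ A]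

/-- partial derivative -/
def pd (i : ι) (f : (ι → ℝ) → V) (x : ι → ℝ) : V := fderiv ℝ f x (Pi.single i 1)

/-- smooth near a point -/
abbrev SA (f : (ι → ℝ) → V) (x : ι → ℝ) : Prop := ContDiffAt ℝ ∞ f x

theorem SA.d {f : (ι → ℝ) → V} {x : ι → ℝ} (h : SA f x) : DifferentiableAt ℝ f x :=
  h.differentiableAt (by simp)

theorem SA.ev {f : (ι → ℝ) → V} {x : ι → ℝ} (h : SA f x) : ∀ᶠ y in 𝓝 x, DifferentiableAt ℝ f y :=
  ((h.of_le (m := 1) (by simp)).eventually (by simp)).mono fun _ hy => hy.differentiableAt (by simp)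

@[fun_prop] theorem SA.pd {f : (ι → ℝ) → V} {x : ι → ℝ} (h : ContDiffAt ℝ ∞ f x) (i : ι) :
    ContDiffAt ℝ ∞ (pd i f) x :=
  (h.fderiv_right (m := ∞) (by simp)).clm_apply contDiffAt_const

@[fun_prop] theorem contDiff_pd {f : (ι → ℝ) → V} (h : ContDiff ℝ ∞ f) (i : ι) :
    ContDiff ℝ ∞ (pd i f) := contDiff_iff_contDiffAt.2 fun _ => SA.pd h.contDiffAt i

section
variable {i j : ι} {x : ι → ℝ}

theorem pd_congr {f g : (ι → ℝ) → V} (h : f =ᶠ[𝓝 x] g) : pd i f x = pd i g x := by
  simp only [pd, h.fderiv_eq]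

theorem pd_const (c : V) : pd i (fun _ : ι → ℝ => c) x = 0 := by simp [pd]

theorem pd_add {f g : (ι → ℝ) → V} (hf : DifferentiableAt ℝ f x) (hg : DifferentiableAt ℝ g x) :
    pd i (fun y => f y + g y) x = pd i f x + pd i g x := by
  simp only [pd, fderiv_fun_add hf hg, add_apply]

theorem pd_sub {f g : (ι → ℝ) → V} (hf : DifferentiableAt ℝ f x) (hg : DifferentiableAt ℝ g x) :
    pd i (fun y => f y - g y) x = pd i f x - pd i g x := by
  simp only [pd, fderiv_fun_sub hf hg, sub_apply]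

theorem pd_neg {f : (ι → ℝ) → V} : pd i (fun y => - f y) x = - pd i f x := by
  simp only [pd, fderiv_fun_neg, neg_apply]

theorem pd_mul {f g : (ι → ℝ) → A} (hf : DifferentiableAt ℝ f x) (hg : DifferentiableAt ℝ g x) :
    pd i (fun y => f y * g y) x = pd i f x * g x + f x * pd i g x := by
  have := (hf.hasFDerivAt.fun_mul' hg.hasFDerivAt).fderiv
  simp only [pd, this, add_apply, smul_apply,
    smul_eq_mul, op_smul_eq_mul]
  abel

theorem pd_smul {f : (ι → ℝ) → ℝ} {g : (ι → ℝ) → V} (hf : DifferentiableAt ℝ f x)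
    (hg : DifferentiableAt ℝ g x) :
    pd i (fun y => f y • g y) x = pd i f x • g x + f x • pd i g x := by
  simp only [pd, fderiv_fun_smul hf hg, add_apply,
    smul_apply, ContinuousLinearMap.smulRight_apply]
  abel

theorem pd_clm (L : V →L[ℝ] W) {f : (ι → ℝ) → V} (hf : DifferentiableAt ℝ f x) :
    pd i (fun y => L (f y)) x = L (pd i f x) := by
  have := (L.hasFDerivAt.comp x hf.hasFDerivAt).fderiv
  simp only [pd]
  rw [show (fun y => L (f y)) = L ∘ f from rfl, this]; rfl

theorem pd_comm {f : (ι → ℝ) → V} (hf : SA f x) : pd i (pd j f) x = pd j (pd i f) x := by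
  have h2 : DifferentiableAt ℝ (fderiv ℝ f) x :=
    SA.d (hf.fderiv_right (m := ∞) (by simp))
  have e : ∀ a b : ι, pd a (pd b f) x = fderiv ℝ (fderiv ℝ f) x (Pi.single a 1) (Pi.single b 1) :=
    fun a b => pd_clm (ContinuousLinearMap.apply ℝ V (Pi.single b (1 : ℝ) : ι → ℝ)) h2
  rw [e, e]
  exact hf.isSymmSndFDerivAt (by simpa using (WithTop.coe_le_coe.2 le_top : ((2 : ℕ∞) : WithTop ℕ∞) ≤ ∞)) _ _

theorem hasDerivAt_upd {f : (ι → ℝ) → V} {s : ℝ} (hf : DifferentiableAt ℝ f (update x i s)) :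
    HasDerivAt (fun r => f (update x i r)) (pd i f (update x i s)) s :=
  hf.hasFDerivAt.comp_hasDerivAt s (hasDerivAt_update x i s)

theorem pd_eq_of {f : (ι → ℝ) → V} (hf : DifferentiableAt ℝ f x) {v : V}
    (h : HasDerivAt (fun r => f (update x i r)) v (x i)) : pd i f x = v := by
  have h1 := hasDerivAt_upd (x := x) (i := i) (s := x i) (f := f) (by rwa [update_eq_self])
  rw [update_eq_self] at h1
  exact h1.unique h

theorem contDiff_upd (i : ι) (c : ℝ) : ContDiff ℝ ∞ fun y : ι → ℝ => update y i c := by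
  refine contDiff_pi.2 fun k => ?_
  by_cases h : k = i
  · subst h; simpa using contDiff_const
  · simpa [update_of_ne h] using contDiff_apply ℝ ℝ k

theorem pd_upd_ne {f : (ι → ℝ) → V} {c : ℝ} (hf : DifferentiableAt ℝ f (update x j c))
    (h : i ≠ j) : pd i (fun y => f (update y j c)) x = pd i f (update x j c) := by
  refine pd_eq_of (f := fun y => f (update y j c))
    (hf.comp x ((contDiff_upd j c).differentiable (by simp) x)) ?_
  have h1 := hasDerivAt_upd (x := update x j c) (i := i) (s := x i) (f := f) (by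
    rwa [update_comm h.symm, update_eq_self])
  rw [update_comm h.symm, update_eq_self] at h1
  simpa only [update_comm h.symm] using h1

/-- a function that does not depend on `x i` along the line through `x` -/
theorem pd_eq_zero {f : (ι → ℝ) → V} (hf : DifferentiableAt ℝ f x)
    (h : ∀ r, f (update x i r) = f x) : pd i f x = 0 :=
  pd_eq_of hf (by simpa only [h] using hasDerivAt_const (x i) (f x))

theorem pd_transl {f : (ι → ℝ) → V} {v : ι → ℝ} (h : ∀ y, f (y + v) = f y) :
    pd i f (x + v) = pd i f x := by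
  simp only [pd]
  rw [← fderiv_comp_add_right]; simp only [h]

theorem pd_coord (φ : ℝ → ℝ) {d : ℝ} (h : HasDerivAt φ d (x j)) :
    pd i (fun y : ι → ℝ => φ (y j)) x = if i = j then d else 0 := by
  have hd : DifferentiableAt ℝ (fun y : ι → ℝ => φ (y j)) x :=
    h.differentiableAt.comp x (differentiableAt_apply j x)
  split_ifs with hij
  · subst hij
    exact pd_eq_of hd (by simpa using h)
  · exact pd_eq_zero hd fun r => by rw [update_of_ne (Ne.symm hij)]

/-- mean value bound along a coordinate -/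
theorem norm_sub_le_upd {f : (ι → ℝ) → V} {a b C : ℝ} (hf : Differentiable ℝ f)
    (hC : ∀ s ∈ Icc a b, ‖pd i f (update x i s)‖ ≤ C) {s : ℝ} (hs : s ∈ Icc a b) :
    ‖f (update x i s) - f (update x i a)‖ ≤ C * (s - a) :=
  norm_image_sub_le_of_norm_deriv_le_segment' (f := fun r => f (update x i r))
    (fun r _ => (hasDerivAt_upd (hf _)).hasDerivWithinAt)
    (fun r hr => hC r (Ico_subset_Icc_self hr)) s hs

end

/-- gauge in the direction `i`: `∂_i g = - M g`, `g = 1` on `x i = 0` -/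
theorem exists_gauge [CompleteSpace A] (i : ι) {M : (ι → ℝ) → A} (hM : ContDiff ℝ ∞ M) :
    ∃ g : (ι → ℝ) → A, ContDiff ℝ ∞ g ∧ (∀ x, g (update x i 0) = 1) ∧
      ∀ x, pd i g x = - (M x * g x) := by
  have hu : ContDiff ℝ ∞ fun q : (ι → ℝ) × ℝ => update q.1 i q.2 := by
    refine contDiff_pi.2 fun k => ?_
    by_cases h : k = i
    · subst h; simpa using contDiff_snd
    · simp only [update_of_ne h]; fun_prop
  obtain ⟨w, hw, h0, hd⟩ := exists_ode (P := ι → ℝ)
    (fun q => ContinuousLinearMap.mul ℝ A (- M (update q.1 i q.2)))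
    ((ContinuousLinearMap.mul ℝ A).contDiff.comp (hM.comp hu).neg) (1 : A)
  have hg : ContDiff ℝ ∞ fun x : ι → ℝ => w (update x i 0, x i) :=
    hw.comp ((contDiff_upd i 0).prodMk (contDiff_apply ℝ ℝ i))
  refine ⟨fun x => w (update x i 0, x i), hg, fun x => by simp [h0], fun x => ?_⟩
  refine pd_eq_of (hg.differentiable (by simp) x) ?_
  simpa using hd (update x i 0) (x i)

/-- uniqueness of the gauge along a line, for two coefficient functions that agree there -/
theorem gauge_unique {i : ι} {M M' g g' : (ι → ℝ) → A} (hM : ContDiff ℝ ∞ M)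
    (hg : ContDiff ℝ ∞ g) (hg' : ContDiff ℝ ∞ g') (hd : ∀ x, pd i g x = - (M x * g x))
    (hd' : ∀ x, pd i g' x = - (M' x * g' x)) {x x' : ι → ℝ}
    (hMM : ∀ s, M (update x i s) = M' (update x' i s)) {a : ℝ}
    (h0 : g (update x i a) = g' (update x' i a)) (s : ℝ) :
    g (update x i s) = g' (update x' i s) := by
  refine ode_unique (B := fun r => ContinuousLinearMap.mul ℝ A (- M (update x i r)))
    ((ContinuousLinearMap.mul ℝ A).continuous.comp
      (hM.continuous.comp (continuous_const.update i continuous_id)).neg)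
    (f := fun r => g (update x i r)) (g := fun r => g' (update x' i r)) (fun r => ?_)
    (fun r => ?_) h0 s
  · simpa [hd] using hasDerivAt_upd (x := x) (i := i) (s := r) (hg.differentiable (by simp) _)
  · simpa [hd', hMM] using
      hasDerivAt_upd (x := x') (i := i) (s := r) (hg'.differentiable (by simp) _)

end Crest.Agent.X212.Rdc90
end
end

-- ▼ part X212/Dfl49/Fro
section

/-!
# Row 212, DFLAT (helper49), file 1: flat connections on a vector space have parallel sections
-/

set_option autoImplicit false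
set_option linter.unusedSectionVars false
noncomputable section
open Set Function Filter Topology
open scoped ContDiff

namespace Crest.Agent.X212.Dfl49

variable {E V : Type} [NormedAddCommGroup E] [NormedSpace ℝ E]
  [NormedAddCommGroup V] [NormedSpace ℝ V] [CompleteSpace V]

/-- the curvature of a connection form -/
def Rc (B : E → E →L[ℝ] V →L[ℝ] V) (z h k : E) : V →L[ℝ] V :=
  fderiv ℝ B z h k - fderiv ℝ B z k h + (B z h * B z k - B z k * B z h)

/-- the covariant derivative of an endomorphism field -/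
def Nc (B : E → E →L[ℝ] V →L[ℝ] V) (Q : E → V →L[ℝ] V) (z h : E) : V →L[ℝ] V :=
  fderiv ℝ Q z h + (B z h * Q z - Q z * B z h)

/-- **Frobenius** -/
theorem frob {B : E → E →L[ℝ] V →L[ℝ] V} {Q : E → V →L[ℝ] V} (hB : ContDiff ℝ ∞ B)
    (hQ : ContDiff ℝ ∞ Q) (hN : ∀ z h, Nc B Q z h * Q z = 0) (hR : ∀ z h k, Rc B z h k * Q z = 0)
    (z₀ : E) {v : V} (hv : Q z₀ v = v) :
    ∃ s : E → V, ContDiff ℝ ∞ s ∧ s z₀ = v ∧ (∀ z, Q z (s z) = s z) ∧
      ∀ z h, fderiv ℝ s z h + B z h (s z) = 0 := by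
  let μ : E × ℝ → E := fun p => z₀ + p.2 • (p.1 - z₀)
  have sμ : ContDiff ℝ ∞ μ := by fun_prop
  let C : E × ℝ → V →L[ℝ] V := fun p => -(B (μ p) (p.1 - z₀))
  have sC : ContDiff ℝ ∞ C := ((hB.comp sμ).clm_apply (by fun_prop)).neg
  obtain ⟨σ, h1, h2, h3⟩ := Rdc90.exists_ode C sC v
  have dB := fun z => (hB.differentiable (by simp) z).hasFDerivAt
  have dQ := fun z => (hQ.differentiable (by simp) z).hasFDerivAt
  have dσ := fun p => (h1.differentiable (by simp) p).hasFDerivAt
  have dμ : ∀ x r, HasDerivAt (fun r => μ (x, r)) (x - z₀) r := fun x r => by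
    have := ((hasDerivAt_id r).smul_const (x - z₀)).const_add z₀
    rw [one_smul] at this
    exact this
  have cμ : ∀ x, Continuous fun r : ℝ => μ (x, r) := fun x => by fun_prop
  have q1 : ∀ x r, Q (μ (x, r)) (σ (x, r)) = σ (x, r) := fun x r => by
    have := Rdc90.ode_unique (B := fun r => C (x, r) - Nc B Q (μ (x, r)) (x - z₀))
      (f := fun r => σ (x, r) - Q (μ (x, r)) (σ (x, r))) (g := fun _ => 0) (a := 0)
      (by
        have c1 := (hQ.continuous_fderiv (by simp)).comp (cμ x)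
        have c2 := hB.continuous.comp (cμ x)
        have c3 := hQ.continuous.comp (cμ x)
        exact (sC.continuous.comp (by fun_prop)).sub ((c1.clm_apply continuous_const).add
          (((c2.clm_apply continuous_const).mul c3).sub (c3.mul (c2.clm_apply continuous_const)))))
      (fun s => by
        have k := (h3 x s).sub (((dQ _).comp_hasDerivAt s (dμ x s)).clm_apply (h3 x s))
        have k2 := congrArg (fun T : V →L[ℝ] V => T (σ (x, s))) (hN (μ (x, s)) (x - z₀))
        refine HasDerivAt.congr_deriv k ?_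
        simp only [mul_apply_eq_comp, zero_apply] at k2
        simp only [C, comp_apply]
        generalize x - z₀ = w at k2 ⊢
        simp only [sub_apply, map_sub, k2]
        simp only [Nc, add_apply, sub_apply, neg_apply, mul_apply_eq_comp, map_neg]
        abel)
      (fun s => by simpa using hasDerivAt_const s (0 : V)) (by simp [μ, h2, hv]) r
    exact (sub_eq_zero.1 this).symm
  have e1 : ∀ p, fderiv ℝ σ p (0, 1) = C p (σ p) := fun p => by
    have k : HasDerivAt (fun r : ℝ => ((p.1, r) : E × ℝ)) (0, 1) p.2 :=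
      (hasDerivAt_const _ _).prodMk (hasDerivAt_id _)
    exact ((dσ p).comp_hasDerivAt p.2 k).unique (h3 p.1 p.2)
  have d2 := fun p => ((h1.fderiv_right (m := ∞) (by simp)).differentiable (by simp) p).hasFDerivAt
  have key : ∀ x h r, fderiv ℝ σ (x, r) (h, 0) + r • B (μ (x, r)) h (σ (x, r)) = 0 := by
    intro x h r
    refine Rdc90.ode_unique (B := fun r => C (x, r))
      (f := fun r => fderiv ℝ σ (x, r) (h, 0) + r • B (μ (x, r)) h (σ (x, r))) (g := fun _ => 0)
      (a := 0) (sC.continuous.comp (by fun_prop)) (fun s => ?_)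
      (fun s => by simpa using hasDerivAt_const s (0 : V)) ?_ r
    · have k : HasDerivAt (fun r : ℝ => ((x, r) : E × ℝ)) (0, 1) s :=
        (hasDerivAt_const _ _).prodMk (hasDerivAt_id _)
      have k1 := ((d2 (x, s)).comp_hasDerivAt s k).clm_apply (hasDerivAt_const s ((h, 0) : E × ℝ))
      have k2 := (hasDerivAt_id s).smul (((((dB _).comp_hasDerivAt s (dμ x s)).clm_apply
        (hasDerivAt_const s h))).clm_apply (h3 x s))
      have sy : fderiv ℝ (fderiv ℝ σ) (x, s) (0, 1) (h, 0) =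
          fderiv ℝ (fderiv ℝ σ) (x, s) (h, 0) (0, 1) :=
        (h1.contDiffAt.isSymmSndFDerivAt (by
          simp only [minSmoothness_of_isRCLikeNormedField]; exact WithTop.coe_le_coe.2 le_top)) _ _
      have l : HasDerivAt (fun t : ℝ => ((x + t • h, s) : E × ℝ)) (h, 0) 0 := by
        simpa using (((hasDerivAt_id (0 : ℝ)).smul_const h).const_add x).prodMk
          (hasDerivAt_const 0 s)
      have l0 : (fun t : ℝ => ((x + t • h, s) : E × ℝ)) 0 = (x, s) := by simp
      have l1 := ((d2 _).comp_hasDerivAt_of_eq 0 l l0.symm).clm_apply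
        (hasDerivAt_const 0 ((0, 1) : E × ℝ))
      have l2 : HasDerivAt (fun t : ℝ => μ (x + t • h, s)) (s • h) 0 := by
        have := ((((hasDerivAt_id (0 : ℝ)).smul_const h).const_add x).sub_const z₀).const_smul s
          |>.const_add z₀
        rw [one_smul] at this
        exact this
      have l3 : HasDerivAt (fun t : ℝ => x + t • h - z₀) h 0 := by
        simpa using (((hasDerivAt_id (0 : ℝ)).smul_const h).const_add x).sub_const z₀
      have l4 := ((((dB (μ (x, s))).comp_hasDerivAt_of_eq 0 l2 (by simp)).clm_apply l3).neg).clm_apply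
        ((dσ _).comp_hasDerivAt_of_eq 0 l l0.symm)
      have l5 := l1.unique (l4.congr_of_eventuallyEq (.of_forall fun t => e1 _))
      have k3 := congrArg (fun T : V →L[ℝ] V => T (σ (x, s))) (hR (μ (x, s)) (x - z₀) h)
      simp only [mul_apply_eq_comp, zero_apply, q1] at k3
      simp only [Rc, add_apply, sub_apply, mul_apply_eq_comp] at k3
      refine HasDerivAt.congr_deriv (k1.add k2) ?_
      simp only [comp_apply, map_zero, add_zero, zero_smul, map_smul, Pi.neg_apply, neg_apply,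
        add_apply, smul_apply] at l5
      simp only [comp_apply, map_zero, add_zero, sy, l5, id, one_smul, C, neg_apply, map_add,
        map_smul, map_neg]
      have k4 := congrArg (fun u : V => s • u) k3
      simp only [smul_add, smul_sub, smul_zero] at k4
      rw [← sub_eq_zero, ← k4]
      simp only [smul_add, smul_neg]
      abel
    · have : (fun y : E => σ (y, 0)) = fun _ => v := funext h2
      have k := ((dσ (x, 0)).comp x (hasFDerivAt_prodMk_left (𝕜 := ℝ) x (0 : ℝ))).fderiv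
      rw [show (σ ∘ fun y => (y, (0 : ℝ))) = fun _ => v from this, fderiv_fun_const] at k
      have := congrArg (fun T : E →L[ℝ] V => T h) k
      simpa using this.symm
  have m1 : ∀ x, μ (x, 1) = x := fun x => by simp [μ]
  refine ⟨fun x => σ (x, 1), h1.comp (by fun_prop), ?_, fun z => by simpa [m1] using q1 z 1,
    fun z h => ?_⟩
  · have := Rdc90.ode_unique (B := fun _ => 0) (f := fun r => σ (z₀, r)) (g := fun _ => v) (a := 0)
      continuous_const (fun s => by simpa [C] using h3 z₀ s)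
      (fun s => by simpa using hasDerivAt_const s v) (h2 _) 1
    exact this
  · have k := ((dσ (z, 1)).comp z (hasFDerivAt_prodMk_left (𝕜 := ℝ) z (1 : ℝ))).fderiv
    rw [show (fun x => σ (x, 1)) = σ ∘ fun y => (y, (1 : ℝ)) from rfl, k]
    simpa [m1] using key z h 1

/-- parallel sections are determined by one value -/
theorem par_zero {B : E → E →L[ℝ] V →L[ℝ] V} (hB : Continuous B) {s : E → V}
    (hs : Differentiable ℝ s) (h : ∀ z k, fderiv ℝ s z k + B z k (s z) = 0) {z₀ : E}
    (h0 : s z₀ = 0) (z : E) : s z = 0 := by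
  have dμ : ∀ r : ℝ, HasDerivAt (fun r : ℝ => z₀ + r • (z - z₀)) (z - z₀) r := fun r => by
    simpa using ((hasDerivAt_id r).smul_const (z - z₀)).const_add z₀
  have := Rdc90.ode_unique (B := fun r : ℝ => -(B (z₀ + r • (z - z₀)) (z - z₀)))
    (f := fun r => s (z₀ + r • (z - z₀))) (g := fun _ => 0) (a := 0)
    ((hB.comp (by fun_prop)).clm_apply continuous_const).neg
    (fun r => by
      refine HasDerivAt.congr_deriv ((hs _).hasFDerivAt.comp_hasDerivAt r (dμ r)) ?_
      rw [neg_apply, eq_neg_of_add_eq_zero_left (h _ _)])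
    (fun r => by simpa using hasDerivAt_const r (0 : V)) (by simpa using h0) 1
  simpa using this

end Crest.Agent.X212.Dfl49
end
end

-- ▼ part X212/Dfl49/Par

/-!
# Row 212, DFLAT (helper49), file 3: parallel sections of flat subbundles form a local system
-/

set_option autoImplicit false
set_option linter.unusedSectionVars false
noncomputable section
open Set Function Filter Topology Module
open scoped ContDiff Manifold

namespace Crest.Agent.X212.Dfl49
open An Sob92 Wz78 Met55 Pj41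

variable {E : Type} [NormedAddCommGroup E] [NormedSpace ℝ E] [FiniteDimensional ℝ E]
  [MeasurableSpace E] [BorelSpace E]
  {HM : Type} [TopologicalSpace HM] {I : ModelWithCorners ℝ E HM} [I.Boundaryless]
  {M : Type} [TopologicalSpace M] [ChartedSpace HM M] [IsManifold I ∞ M]
  [MeasurableSpace M] {ι : Type} [Fintype ι]
  {E' : Type} [NormedAddCommGroup E'] [NormedSpace ℝ E'] [FiniteDimensional ℝ E']
  {V N : Type} [NormedAddCommGroup V] [NormedSpace ℝ V] [CompleteSpace V]
  [NormedAddCommGroup N] [NormedSpace ℝ N]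

variable (I) in
/-- a parametrisation of an open set by a vector space -/
structure Pq (q : E' → M) (u : M → E') : Prop where
  sq : ContMDiff 𝓘(ℝ, E') I ∞ q
  su : ∀ z, SA I u (q z)
  uq : ∀ z, u (q z) = z
  qu : ∀ z, ∀ᶠ y in 𝓝 (q z), q (u y) = y

variable (I) in
theorem exists_pq (x : M) {O : Set M} (hO : O ∈ 𝓝 x) :
    ∃ (q : EuclideanSpace ℝ (Fin (finrank ℝ E)) → M) (u : M → _), Pq I q u ∧ q 0 = x ∧
      ∀ z, q z ∈ O := by
  let L : EuclideanSpace ℝ (Fin (finrank ℝ E)) ≃L[ℝ] E :=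
    ContinuousLinearEquiv.ofFinrankEq (by simp)
  let φ := extChartAt I x
  have h1 : ∀ᶠ y in 𝓝 (L.symm (φ x)), L y ∈ φ.target ∧ φ.symm (L y) ∈ O := by
    have t : Tendsto L (𝓝 (L.symm (φ x))) (𝓝 (φ x)) := by
      simpa using L.continuous.tendsto (L.symm (φ x))
    exact t.eventually (inter_mem (extChartAt_target_mem_nhds x) (extChartAt_preimage_mem_nhds hO))
  obtain ⟨r, hr, h2⟩ := Metric.nhds_basis_ball.eventually_iff.1 h1
  let b := OpenPartialHomeomorph.univBall (L.symm (φ x)) r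
  have bs : b.source = univ := OpenPartialHomeomorph.univBall_source _ r
  have bt : b.target = Metric.ball _ r := OpenPartialHomeomorph.univBall_target _ hr
  have hb : ∀ z, b z ∈ Metric.ball (L.symm (φ x)) r := fun z => bt ▸ b.map_source (bs ▸ trivial)
  have hs : ∀ z, φ.symm (L (b z)) ∈ φ.source := fun z => φ.map_target (h2 (hb z)).1
  have e1 : ∀ z, L.symm (φ (φ.symm (L (b z)))) = b z := fun z => by
    rw [φ.right_inv (h2 (hb z)).1, L.symm_apply_apply]
  have s1 : ∀ z, SA I (fun y => L.symm (φ y)) (φ.symm (L (b z))) := fun z =>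
    L.symm.contDiff.contMDiff.contMDiffAt.comp _
      (contMDiffAt_extChartAt' (by simpa [φ] using hs z))
  refine ⟨fun z => φ.symm (L (b z)), fun y => b.symm (L.symm (φ y)), ⟨?_, fun z => ?_, fun z => ?_,
    fun z => ?_⟩, ?_, fun z => (h2 (hb z)).2⟩
  · exact (contMDiffOn_extChartAt_symm x).comp_contMDiff
      (L.contDiff.comp OpenPartialHomeomorph.contDiff_univBall).contMDiff fun z => (h2 (hb z)).1
  · refine ContMDiffAt.comp (g := b.symm) (I' := 𝓘(ℝ, _)) _ ?_ (s1 z)
    rw [e1]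
    exact (OpenPartialHomeomorph.contDiffOn_univBall_symm.contDiffAt
      (Metric.isOpen_ball.mem_nhds (hb z))).contMDiffAt
  · rw [e1, b.left_inv (bs ▸ trivial)]
  · filter_upwards [extChartAt_source_mem_nhds' (hs z), (s1 z).continuousAt.eventually
      (Metric.isOpen_ball.mem_nhds (e1 z ▸ hb z))] with y k1 k2
    rw [b.right_inv (bt ▸ k2), L.apply_symm_apply, φ.left_inv k1]
  · show φ.symm (L (b 0)) = x
    rw [OpenPartialHomeomorph.univBall_apply_zero, L.apply_symm_apply,
      φ.left_inv (mem_extChartAt_source x)]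

namespace Pq
variable {q : E' → M} {u : M → E'} (h : Pq I q u) (F : Fr I M ι)
include h

theorem mem_nhds (z : E') : range q ∈ 𝓝 (q z) := (h.qu z).mono fun _ hy => ⟨_, hy⟩

theorem ld (z : E') : IsLocalDiffeomorphAt I 𝓘(ℝ, E') ∞ u (q z) :=
  Cyl58.ld_of_inverse (U := range q) (V := univ) (g := q)
    (isOpen_iff_mem_nhds.2 (by rintro _ ⟨z, rfl⟩; exact h.mem_nhds z)) isOpen_univ
    (by rintro _ ⟨z, rfl⟩; exact (h.su z).contMDiffWithinAt) h.sq.contMDiffOn (mapsTo_univ _ _)
    (fun z _ => mem_range_self z) (by rintro _ ⟨z, rfl⟩; rw [h.uq]) (fun z _ => h.uq z)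
    (mem_range_self z)

theorem cd {w : M → N} (hw : ∀ z, SA I w (q z)) : ContDiff ℝ ∞ (w ∘ q) :=
  contMDiff_iff_contDiff.1 fun z => ContMDiffAt.comp z (hw z) (h.sq z)

omit h in
/-- the frame in the coordinates -/
def ε (q : E' → M) (u : M → E') (a : ι) (z : E') : E' := dv I (F.e a) u (q z)

theorem sm_ε (a : ι) : ContDiff ℝ ∞ (ε F q u a) :=
  h.cd (w := dv I (F.e a) u) fun z => (frm F).sD a (h.su z)

theorem dv_eq {w : M → N} {z : E'} (hw : MDifferentiableAt I 𝓘(ℝ, N) w (q z)) (a : ι) :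
    dv I (F.e a) w (q z) = fderiv ℝ (w ∘ q) z (ε F q u a z) := by
  have d : DifferentiableAt ℝ (w ∘ q) z :=
    (hw.comp z ((h.sq z).mdifferentiableAt (by simp))).differentiableAt
  have := dv_comp (e := F.e a) (h.su z).md (g := w ∘ q) (g' := fderiv ℝ (w ∘ q) z)
    (by rw [h.uq]; exact d.hasFDerivAt)
  rw [ε, ← this]
  exact dv_congr ((h.qu z).mono fun y hy => (congrArg w hy).symm)

theorem sp (z : E') : Sp fun a => ε F q u a z :=
  (pre_sp F.toPre (q z)).map (A := dmp I 𝓘(ℝ, E') u (q z)) (ld_bij (h.ld z)).2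

theorem isP (z : E') : IsP (fun a => ε F q u a z) (Matrix.of fun a b => F.P a b (q z)) :=
  (fr_isP F (q z)).map (A := dmp I 𝓘(ℝ, E') u (q z)) (ld_bij (h.ld z)).1

theorem ext {z : E'} {T : E' →L[ℝ] N} (hT : ∀ a, T (ε F q u a z) = 0) (v : E') : T v = 0 := by
  obtain ⟨c, rfl⟩ := h.sp F z v
  simp [map_sum, hT]

theorem br (a b : ι) (z : E') :
    fderiv ℝ (ε F q u b) z (ε F q u a z) - fderiv ℝ (ε F q u a) z (ε F q u b z) =
      ∑ k, F.c a b k (q z) • ε F q u k z := by
  have := (frm F).brV a b (h.su z)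
  rwa [h.dv_eq F ((frm F).sD b (h.su z)).md, h.dv_eq F ((frm F).sD a (h.su z)).md] at this

/-- a one-form in the coordinates -/
theorem exists_form {A : ι → M → N} (sA : ∀ a z, SA I (A a) (q z))
    (pA : ∀ a z, ∑ b, F.P a b (q z) • A b (q z) = A a (q z)) :
    ∃ B : E' → E' →L[ℝ] N, ContDiff ℝ ∞ B ∧ ∀ z a, B z (ε F q u a z) = A a (q z) := by
  let b := finBasis ℝ E'
  have s1 : ∀ z, MSm 𝓘(ℝ, E') (fun z => fm b fun a => ε F q u a z) z := fun z i a =>
    ((b.coord i).toContinuousLinearMap.contDiff.comp (h.sm_ε F a)).contMDiff z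
  have s2 : ∀ z, MSm 𝓘(ℝ, E') (fun z => ri b fun a => ε F q u a z) z := fun z =>
    (s1 z).transpose.mul (((s1 z).mul (s1 z).transpose).inv (h.sp F z).det_pos.ne')
  refine ⟨fun z => ∑ i, (b.coord i).toContinuousLinearMap.smulRight
    (∑ a, ri b (fun a => ε F q u a z) a i • A a (q z)), ?_, fun z a => ?_⟩
  · refine ContDiff.sum fun i _ => ContDiff.smulRight contDiff_const (ContDiff.sum fun a _ => ?_)
    exact (contMDiff_iff_contDiff.1 fun z => s2 z a i).smul (h.cd (sA a))
  · rw [← pA a z]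
    have e := (h.isP F z).eq_prj (h.sp F z) b
    have e' : ∀ c, F.P a c (q z) = prj b (fun a => ε F q u a z) c a := fun c => by
      rw [← e, F.P_symm]; rfl
    simp only [e', prj, Matrix.mul_apply, fm_apply, _root_.sum_apply,
      ContinuousLinearMap.smulRight_apply, Finset.smul_sum, Finset.sum_smul, smul_smul]
    rw [Finset.sum_comm]
    exact Finset.sum_congr rfl fun c _ => Finset.sum_congr rfl fun i _ => by rw [mul_comm]; rfl

variable {A : ι → M → V →L[ℝ] V} {B : E' → E' →L[ℝ] V →L[ℝ] V}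

theorem nab_eq (e : ∀ z a, B z (ε F q u a z) = A a (q z)) {s : M → V} {z : E'}
    (hs : MDifferentiableAt I 𝓘(ℝ, V) s (q z)) (a : ι) : nab I F.e A a s (q z) =
      fderiv ℝ (s ∘ q) z (ε F q u a z) + B z (ε F q u a z) ((s ∘ q) z) := by
  rw [nab, h.dv_eq F hs, e]; rfl

theorem nabE_eq (e : ∀ z a, B z (ε F q u a z) = A a (q z)) {Q : M → V →L[ℝ] V} {z : E'}
    (hs : SA I Q (q z)) (a : ι) : nabE I F.e A a Q (q z) = Nc B (Q ∘ q) z (ε F q u a z) := by
  rw [nabE, h.dv_eq F hs.md, Nc, e]; rfl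

theorem curv_eq (sB : ContDiff ℝ ∞ B) (e : ∀ z a, B z (ε F q u a z) = A a (q z))
    (sA : ∀ a z, SA I (A a) (q z)) (a b : ι) (z : E') :
    curv I F.e F.c A a b (q z) = Rc B z (ε F q u a z) (ε F q u b z) := by
  have k : ∀ a b, dv I (F.e a) (A b) (q z) = fderiv ℝ B z (ε F q u a z) (ε F q u b z) +
      B z (fderiv ℝ (ε F q u b) z (ε F q u a z)) := fun a b => by
    rw [h.dv_eq F (sA b z).md, show A b ∘ q = fun z => B z (ε F q u b z) from
      _root_.funext fun z => (e z b).symm,
      fderiv_clm_apply (sB.differentiable (by simp) z) ((h.sm_ε F b).differentiable (by simp) z)]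
    simp [add_comm]
  have k2 := congrArg (B z) (h.br F a b z)
  simp only [map_sub, map_sum, map_smul, e] at k2
  rw [curv, k, k, ← k2, Rc, e, e]; abel

end Pq

/-- `Q` cuts out a flat part of the connection `A` over `S` -/
structure Flt (F : Fr I M ι) (S : Set M) (A : ι → M → V →L[ℝ] V) (Q : M → V →L[ℝ] V) : Prop where
  op : IsOpen S
  sA : ∀ a, ∀ x ∈ S, SA I (A a) x
  pA : ∀ a, ∀ x ∈ S, ∑ b, F.P a b x • A b x = A a x
  sQ : ∀ x ∈ S, SA I Q x
  nQ : ∀ a, ∀ x ∈ S, nabE I F.e A a Q x * Q x = 0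
  cQ : ∀ a b, ∀ x ∈ S, curv I F.e F.c A a b x * Q x = 0

/-- a parallel section of `Q` at `x` -/
structure PA (F : Fr I M ι) (A : ι → M → V →L[ℝ] V) (Q : M → V →L[ℝ] V) (s : M → V) (x : M) :
    Prop where
  sm : SA I s x
  mem : Q x (s x) = s x
  par : ∀ a, nab I F.e A a s x = 0

variable {F : Fr I M ι} {S O : Set M} {A : ι → M → V →L[ℝ] V} {Q : M → V →L[ℝ] V}

theorem PA.congr {s s' : M → V} {x : M} (h : PA F A Q s x) (e : s' =ᶠ[𝓝 x] s) : PA F A Q s' x :=
  ⟨h.sm.congr_of_eventuallyEq e, by rw [e.eq_of_nhds, h.mem], fun a => by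
    rw [nab_congr a e, h.par]⟩

/-- parallel sections are determined by one value, locally -/
theorem par_uniq {x : M} (sA : ∀ᶠ y in 𝓝 x, ∀ a, SA I (A a) y ∧ ∑ b, F.P a b y • A b y = A a y)
    {s s' : M → V} (h : ∀ᶠ y in 𝓝 x, SA I s y ∧ ∀ a, nab I F.e A a s y = 0)
    (h' : ∀ᶠ y in 𝓝 x, SA I s' y ∧ ∀ a, nab I F.e A a s' y = 0) (e : s x = s' x) :
    s =ᶠ[𝓝 x] s' := by
  obtain ⟨q, u, hq, rfl, hm⟩ := exists_pq I x (sA.and (h.and h'))
  obtain ⟨B, sB, eB⟩ := hq.exists_form F (fun a z => ((hm z).1 a).1) fun a z => ((hm z).1 a).2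
  have sd : ∀ z, SA I (fun y => s y - s' y) (q z) := fun z => (hm z).2.1.1.sub (hm z).2.2.1
  have := par_zero (s := (fun y => s y - s' y) ∘ q) sB.continuous
    ((hq.cd sd).differentiable (by simp)) (fun z k => hq.ext F
      (T := fderiv ℝ ((fun y => s y - s' y) ∘ q) z + (B z).flip (((fun y => s y - s' y) ∘ q) z))
      (fun a => by
        have := hq.nab_eq F eB (sd z).md a
        rw [nab_sub a (hm z).2.1.1 (hm z).2.2.1, (hm z).2.1.2, (hm z).2.2.2, sub_zero] at this
        exact this.symm) k) (z₀ := 0) (sub_eq_zero.2 e)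
  filter_upwards [hq.mem_nhds 0]
  rintro _ ⟨z, rfl⟩
  exact sub_eq_zero.1 (this z)

/-- local existence of parallel sections -/
theorem Flt.exists_loc (h : Flt F S A Q) {x : M} (hx : x ∈ S) : ∃ W ∈ 𝓝 x, IsOpen W ∧ W ⊆ S ∧
    ∀ y ∈ W, ∀ v, Q y v = v → ∃ s, s y = v ∧ ∀ z ∈ W, PA F A Q s z := by
  obtain ⟨q, u, hq, rfl, hm⟩ := exists_pq I x (h.op.mem_nhds hx)
  obtain ⟨B, sB, eB⟩ := hq.exists_form F (fun a z => h.sA a _ (hm z)) fun a z => h.pA a _ (hm z)
  refine ⟨range q, hq.mem_nhds 0, isOpen_iff_mem_nhds.2 (by rintro _ ⟨z, rfl⟩; exact hq.mem_nhds z),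
    range_subset_iff.2 hm, ?_⟩
  rintro _ ⟨z₀, rfl⟩ v hv
  let mR : (V →L[ℝ] V) → (V →L[ℝ] V) →L[ℝ] V →L[ℝ] V := fun T => (ContinuousLinearMap.mul ℝ _).flip T
  obtain ⟨σ, s1, s2, s3, s4⟩ := frob (B := B) (Q := Q ∘ q) sB (hq.cd fun z => h.sQ _ (hm z))
    (fun z k => by
      have := hq.ext F (z := z) (T := mR (Q (q z)) ∘L (fderiv ℝ (Q ∘ q) z +
        (mR (Q (q z)) ∘L B z - ContinuousLinearMap.mul ℝ _ (Q (q z)) ∘L B z)))
        (fun a => by
          have := h.nQ a _ (hm z)
          rw [hq.nabE_eq F eB (h.sQ _ (hm z))] at this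
          exact this) k
      exact this)
    (fun z k l => by
      obtain ⟨c, rfl⟩ := hq.sp F z k
      obtain ⟨d, rfl⟩ := hq.sp F z l
      have e : ∀ a b, Rc B z (Pq.ε F q u a z) (Pq.ε F q u b z) * (Q ∘ q) z = 0 := fun a b => by
        rw [← hq.curv_eq F sB eB fun a z => h.sA a _ (hm z)]; exact h.cQ a b _ (hm z)
      have : Rc B z (∑ a, c a • Pq.ε F q u a z) (∑ a, d a • Pq.ε F q u a z) =
          ∑ a, ∑ b, (c a * d b) • Rc B z (Pq.ε F q u a z) (Pq.ε F q u b z) := by
        simp only [Rc, map_sum, map_smul, _root_.sum_apply, smul_apply, Finset.sum_mul,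
          Finset.mul_sum, smul_mul_assoc, mul_smul_comm, smul_add, smul_sub,
          Finset.sum_add_distrib, Finset.sum_sub_distrib, Finset.smul_sum, smul_smul]
        congr 2 <;> (rw [Finset.sum_comm]; simp only [mul_comm (d _)])
      rw [this]
      simp only [Finset.sum_mul, smul_mul_assoc, e, smul_zero, Finset.sum_const_zero]) z₀ hv
  have e0 : (σ ∘ u) ∘ q = σ := _root_.funext fun z => congrArg σ (hq.uq z)
  refine ⟨σ ∘ u, (congrFun e0 z₀).trans s2, ?_⟩
  rintro _ ⟨z, rfl⟩
  have k : SA I (σ ∘ u) (q z) := s1.contMDiff.contMDiffAt.comp _ (hq.su z)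
  refine ⟨k, ?_, fun a => ?_⟩
  · rw [show (σ ∘ u) (q z) = σ z from congrFun e0 z]; exact s3 z
  · rw [hq.nab_eq F eB k.md, e0, s4]

theorem Flt.ls (h : Flt F S A Q) : LS S fun x s => ∀ᶠ y in 𝓝 x, PA F A Q s y := by
  refine ⟨fun x s s' h1 h2 => ?_, fun x hx s s' h1 h2 h3 => ?_, fun x hx => ?_⟩
  · filter_upwards [h1, h2.eventually_nhds] with y k1 k2 using k1.congr k2
  · refine par_uniq (F := F) (A := A) (mem_of_superset (h.op.mem_nhds hx) fun y hy a =>
      ⟨h.sA a y hy, h.pA a y hy⟩) (h1.mono fun y hy => ⟨hy.sm, hy.par⟩)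
      (h2.mono fun y hy => ⟨hy.sm, hy.par⟩) ?_
    exact tendsto_nhds_unique_of_frequently_eq h1.self_of_nhds.sm.continuousAt
      h2.self_of_nhds.sm.continuousAt h3
  · obtain ⟨W, h1, h2, -, h4⟩ := h.exists_loc hx
    refine ⟨W, h1, fun y hy s hs => ?_⟩
    obtain ⟨t, k1, k2⟩ := h4 y hy _ hs.self_of_nhds.mem
    exact ⟨t, fun z hz => mem_of_superset (h2.mem_nhds hz) k2, k1⟩

/-- **EXT**: parallel sections extend -/
theorem Flt.ext (h : Flt F S A Q) (hS : Sur O S) (hO : IsOpen O) {s : M → V}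
    (hs : ∀ x ∈ O, PA F A Q s x) : ∃ t, (∀ x ∈ S, PA F A Q t x) ∧ EqOn t s O := by
  obtain ⟨t, h1, h2⟩ := hS V _ h.ls s fun x hx => mem_of_superset (hO.mem_nhds hx) hs
  exact ⟨t, fun x hx => (h1 x hx).self_of_nhds, h2⟩

/-- the identity theorem -/
theorem par_eqOn {C : Set M} (hS : IsOpen S) (hC : IsPreconnected C) (hCS : C ⊆ S)
    (sA : ∀ a, ∀ x ∈ S, SA I (A a) x) (pA : ∀ a, ∀ x ∈ S, ∑ b, F.P a b x • A b x = A a x)
    {s s' : M → V} (h : ∀ y ∈ S, SA I s y ∧ ∀ a, nab I F.e A a s y = 0)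
    (h' : ∀ y ∈ S, SA I s' y ∧ ∀ a, nab I F.e A a s' y = 0) {x : M} (hx : x ∈ C)
    (e : s x = s' x) : EqOn s s' C := by
  have u : ∀ y ∈ S, s y = s' y → s =ᶠ[𝓝 y] s' := fun y hy => par_uniq (F := F) (A := A)
    (mem_of_superset (hS.mem_nhds hy) fun z hz a => ⟨sA a z hz, pA a z hz⟩)
    (mem_of_superset (hS.mem_nhds hy) h) (mem_of_superset (hS.mem_nhds hy) h')
  have k := hC.subset_left_of_subset_union (u := {y | ∀ᶠ z in 𝓝 y, s z = s' z})
    (v := {y | ∀ᶠ z in 𝓝 y, ¬ s z = s' z}) isOpen_setOfPred_eventually_nhds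
    isOpen_setOfPred_eventually_nhds
    (disjoint_left.2 fun y a b => (b.self_of_nhds) a.self_of_nhds)
    (fun y hy => by
      by_cases q : s y = s' y
      · exact Or.inl (u y (hCS hy) q)
      · exact Or.inr (((h y (hCS hy)).1.continuousAt.prodMk
          (h' y (hCS hy)).1.continuousAt).eventually (isClosed_diagonal.isOpen_compl.mem_nhds q)))
    ⟨x, hx, u x (hCS hx) e⟩
  exact fun y hy => (k hy).self_of_nhds

end Crest.Agent.X212.Dfl49
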