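import Crest.Agent.X212.Cyl58.TdF
import Crest.Agent.X212.Cyl58.TdL
import Crest.Agent.X212.Cyl58.TdJ
import Crest.Agent.X212.Dfl49.Tk1
import Crest.Agent.X212.Dfl49.Tk2
import Crest.Agent.X212.Eps37.Dw
import Crest.Agent.X212.Dfl49.Tk3
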